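import Vale.Agent.P083.Main

/-!
A separable unital C*-algebra with no unital embedding into any ultrapower of the Cuntz algebra.
-/

namespace Vale.Agent.Results.P083.KirchbergEmbeddingFails

open Vale.Agent.P083 Filter

theorem result :
    (∃ (O : Type) (_ : CStarAlgebra O), IsCuntzAlgebraTwo O) ∧
    (∃ ω : Ultrafilter ℕ, (ω : Filter ℕ) ≤ cofinite) ∧
    (∀ (B : Type) [CStarAlgebra B] (ω : Ultrafilter ℕ), HasUnitalEmbeddingInUltrapower B B ω) ∧
    ∃ (A : Type) (_ : CStarAlgebra A), TopologicalSpace.SeparableSpace A ∧ Nontrivial A ∧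
      ∀ (O : Type) [CStarAlgebra O], IsCuntzAlgebraTwo O →
        ∀ ω : Ultrafilter ℕ, (ω : Filter ℕ) ≤ cofinite →
          ¬ HasUnitalEmbeddingInUltrapower A O ω := by
  refine ⟨⟨O2, inferInstance, O2_universal⟩, ⟨hyperfilter ℕ, hyperfilter_le_cofinite⟩, ?_, ?_⟩
  · intro B _ ω
    refine ⟨fun a _ => a, fun a => ⟨‖a‖, fun _ => le_rfl⟩, ?_, ?_, ?_, ?_, ?_, ?_⟩
    all_goals try (intros; simpa using tendsto_const_nhds (x := (0 : ℝ)))
    intro a ha
    exact norm_eq_zero.1 (tendsto_nhds_unique tendsto_const_nhds ha)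
  · exact ⟨FockAlg, inferInstance, fockAlg_separable, fockAlg_nontrivial,
      fun O _ hO ω _ => no_embedding hO ω⟩

end Vale.Agent.Results.P083.KirchbergEmbeddingFails
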